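import Vale.Agent.P194.Cut

namespace Vale.Agent.Results.P201.OneSidedLocal

/-- Being a zero divisor in a group algebra is decided inside the subgroup generated by the support
of ONE factor: if the elements of `K[G]` supported in a subgroup `H` (the canonical copy of `K[H]`)
have no zero divisors, then an element `a` supported in `H` is not a left zero divisor in `K[G]`,
for an arbitrary overgroup `G`. -/
theorem result {K G : Type*} [Field K] [Group G] (H : Subgroup G)
    (hH : ∀ x y : MonoidAlgebra K G, (∀ g, x.coeff g ≠ 0 → g ∈ H) → (∀ g, y.coeff g ≠ 0 → g ∈ H) →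
      x * y = 0 → x = 0 ∨ y = 0)
    (a b : MonoidAlgebra K G) (ha : ∀ g, a.coeff g ≠ 0 → g ∈ H) (hab : a * b = 0) :
    a = 0 ∨ b = 0 :=
  Vale.Agent.P194.local_zd H hH a b ha hab

end Vale.Agent.Results.P201.OneSidedLocal
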